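import Vale.Agent.P181.H19.Gt
import Vale.Agent.P181.T4.Typ

/-!
# P181, MD+ [P1]: the peel identity (Weyl's product formula, top row and one letter removed)
-/

set_option autoImplicit false

namespace Vale.Agent.P181.MD.H112

open Finset Vale.Agent.P181.H463 Vale.Agent.P181.H19

lemma ex_eq_pad {n : ℕ} (lam : Fin n → ℕ) (i : ℕ) : T4.ex lam i = pad lam i := rfl

lemma pad_succ {n : ℕ} (η : Fin (n + 1) → ℕ) (k : ℕ) :
    pad η (k + 1) = pad (fun i : Fin n => η i.succ) k := by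
  unfold pad
  by_cases h : k < n
  · rw [dif_pos h, dif_pos (Nat.succ_lt_succ h)]
    rfl
  · rw [dif_neg h, dif_neg (fun h' => h (Nat.lt_of_succ_lt_succ h'))]

lemma pad_zero' {n : ℕ} (η : Fin (n + 1) → ℕ) : pad η 0 = η 0 := by
  unfold pad
  rw [dif_pos (Nat.succ_pos n)]
  rfl

lemma seqx_castSucc {n M : ℕ} (η : Fin (n + 1) → ℕ) (i : Fin M) :
    seqx η (M + 1) i.castSucc = seqx (fun i : Fin n => η i.succ) M i := by
  unfold seqx
  have h := i.2
  have e : M + 1 - 1 - (i.castSucc : ℕ) = (M - 1 - (i : ℕ)) + 1 := by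
    rw [Fin.val_castSucc]
    omega
  rw [e, pad_succ, Fin.val_castSucc]

lemma seqx_last {n M : ℕ} (η : Fin (n + 1) → ℕ) :
    seqx η (M + 1) (Fin.last M) = η 0 + M := by
  unfold seqx
  have e : M + 1 - 1 - ((Fin.last M : Fin (M + 1)) : ℕ) = 0 := by
    rw [Fin.val_last]
    omega
  rw [e, pad_zero', Fin.val_last]

lemma prod_Ioi_if {N : ℕ} (f : Fin N → ℤ) (i : Fin N) :
    ∏ j ∈ Ioi i, f j = ∏ j, if i < j then f j else 1 := by
  rw [← Finset.prod_filter]
  refine Finset.prod_congr ?_ fun _ _ => rfl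
  ext j
  simp

lemma prod_split {M : ℕ} (x : Fin (M + 1) → ℤ) :
    ∏ i : Fin (M + 1), ∏ j ∈ Ioi i, (x j - x i) =
      (∏ i : Fin M, ∏ j ∈ Ioi i, (x j.castSucc - x i.castSucc)) *
        ∏ i : Fin M, (x (Fin.last M) - x i.castSucc) := by
  rw [Fin.prod_univ_castSucc]
  have h1 : ∏ j ∈ Ioi (Fin.last M), (x j - x (Fin.last M)) = 1 := by
    rw [prod_Ioi_if]
    refine Finset.prod_eq_one fun j _ => ?_
    rw [if_neg (not_lt.2 (Fin.le_last j))]
  rw [h1, mul_one, ← Finset.prod_mul_distrib]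
  refine Finset.prod_congr rfl fun i _ => ?_
  rw [prod_Ioi_if, Fin.prod_univ_castSucc, if_pos (Fin.castSucc_lt_last i), prod_Ioi_if]
  congr 1

/-- the peel identity over `ℤ` -/
theorem peelZ {n M : ℕ} (hn : n ≤ M) (η : Fin (n + 1) → ℕ) (hη : Antitone η) :
    (gt (n + 1) (M + 1) η : ℤ) * (M.factorial : ℤ) =
      gt n M (fun i => η i.succ) *
        ∏ j ∈ range M, ((η 0 : ℤ) - (pad η (j + 1) : ℤ) + ((j : ℤ) + 1)) := by
  have hη' : Antitone (fun i : Fin n => η i.succ) := fun i j h => hη (Fin.succ_le_succ_iff.2 h)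
  have h1 := gt_prod (Nat.succ_le_succ hn) η hη
  have h2 := gt_prod hn (fun i : Fin n => η i.succ) hη'
  rw [prod_split, Fin.prod_univ_castSucc] at h1
  simp only [seqx_castSucc, seqx_last, Fin.val_castSucc, Fin.val_last] at h1
  rw [← h2] at h1
  have h3 : ∏ i : Fin M, (((η 0 + M : ℕ) : ℤ) - (seqx (fun i : Fin n => η i.succ) M i : ℤ)) =
      ∏ j ∈ range M, ((η 0 : ℤ) - (pad η (j + 1) : ℤ) + ((j : ℤ) + 1)) := by
    rw [← Finset.prod_range_reflect, Finset.prod_range]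
    refine Finset.prod_congr rfl fun i _ => ?_
    have hi := i.2
    unfold seqx
    rw [← pad_succ]
    have e : ((M - 1 - (i : ℕ) : ℕ) : ℤ) = (M : ℤ) - 1 - (i : ℤ) := by
      have : M - 1 - (i : ℕ) + 1 + i = M := by omega
      have h : ((M - 1 - (i : ℕ) + 1 + i : ℕ) : ℤ) = (M : ℤ) := by rw [this]
      push_cast at h ⊢
      linarith
    rw [e]
    push_cast
    ring
  rw [h3] at h1
  have h4 : (∏ i : Fin M, ((i : ℕ).factorial : ℤ)) ≠ 0 := prod_fac_pos M
  apply mul_right_cancel₀ h4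
  linear_combination h1

/-- **[P1]** the peel identity -/
theorem peel : ∀ (n M : ℕ) (η : Fin (n + 1) → ℕ), n ≤ M → Antitone η →
    gt (n + 1) (M + 1) η * M.factorial =
      gt n M (fun i => η i.succ) * ∏ j ∈ range M, (η 0 - T4.ex η (j + 1) + (j + 1)) := by
  intro n M η hn hη
  have h := peelZ hn η hη
  have e : ((∏ j ∈ range M, (η 0 - T4.ex η (j + 1) + (j + 1)) : ℕ) : ℤ) =
      ∏ j ∈ range M, ((η 0 : ℤ) - (pad η (j + 1) : ℤ) + ((j : ℤ) + 1)) := by
    rw [Nat.cast_prod]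
    refine Finset.prod_congr rfl fun j _ => ?_
    have h1 : T4.ex η (j + 1) ≤ η 0 := by
      rw [ex_eq_pad, ← pad_zero' η]
      exact pad_anti hη (Nat.zero_le _)
    rw [Nat.cast_add, Nat.cast_sub h1, ex_eq_pad]
    push_cast
    ring
  have h2 : ((gt (n + 1) (M + 1) η * M.factorial : ℕ) : ℤ) =
      ((gt n M (fun i => η i.succ) * ∏ j ∈ range M, (η 0 - T4.ex η (j + 1) + (j + 1)) : ℕ) : ℤ) := by
    rw [Nat.cast_mul, Nat.cast_mul, e, h]
  exact_mod_cast h2

end Vale.Agent.P181.MD.H112
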