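import Vale.Agent.P181.MD.H112.Peel

/-!
# P181, MD+ [P2a]: two rows peeled, with the binomial coefficient of the orbit inequality
-/

set_option autoImplicit false

namespace Vale.Agent.P181.MD.H112

open Finset Vale.Agent.P181.H463 Vale.Agent.P181.H19

lemma ex_succ {n : ℕ} (η : Fin (n + 1) → ℕ) (k : ℕ) :
    T4.ex η (k + 1) = T4.ex (fun i : Fin n => η i.succ) k := pad_succ η k

lemma ex_anti {n : ℕ} {η : Fin n → ℕ} (h : Antitone η) {k l : ℕ} (hkl : k ≤ l) :
    T4.ex η l ≤ T4.ex η k := pad_anti h hkl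

lemma choose_prod (S K : ℕ) : ((S + K).choose K) * K.factorial = ∏ j ∈ range K, (S + (j + 1)) := by
  induction K with
  | zero => simp
  | succ K ih =>
    rw [prod_range_succ, ← ih]
    have h := Nat.add_one_mul_choose_eq (S + K) K
    have e : S + (K + 1) = (S + K).succ := rfl
    rw [Nat.factorial_succ, e]
    calc ((S + K).succ.choose (K + 1)) * ((K + 1) * K.factorial) =
        ((S + K).succ.choose (K + 1) * (K + 1)) * K.factorial := by ring
      _ = ((S + K).succ * (S + K).choose K) * K.factorial := by rw [← h]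
      _ = (S + K).choose K * K.factorial * (S + K).succ := by ring

/-- lower bound of a product with at most `R` small factors -/
lemma prod_low (K R : ℕ) (f g : ℕ → ℝ) (c q : ℝ) (hq : 0 ≤ q) (hq1 : q ≤ 1) (hc : 0 ≤ c)
    (hg : ∀ j ∈ range K, 0 ≤ g j)
    (h1 : ∀ j ∈ range K, R ≤ j → c * g j ≤ f j)
    (h2 : ∀ j ∈ range K, j < R → q * (c * g j) ≤ f j) :
    q ^ R * c ^ K * ∏ j ∈ range K, g j ≤ ∏ j ∈ range K, f j := by
  have key : ∏ j ∈ range K, ((if j < R then q else 1) * (c * g j)) ≤ ∏ j ∈ range K, f j := by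
    refine prod_le_prod (fun j hj => ?_) fun j hj => ?_
    · refine mul_nonneg ?_ (mul_nonneg hc (hg j hj))
      split_ifs
      · exact hq
      · exact zero_le_one
    · split_ifs with h
      · exact h2 j hj h
      · rw [one_mul]
        exact h1 j hj (not_lt.1 h)
  refine le_trans ?_ key
  rw [prod_mul_distrib, prod_mul_distrib, prod_const, card_range]
  have h3 : q ^ R ≤ ∏ j ∈ range K, (if j < R then q else 1) := by
    rw [prod_ite, prod_const_one, mul_one, prod_const]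
    refine pow_le_pow_of_le_one hq hq1 ?_
    calc ((range K).filter fun j => j < R).card ≤ (range R).card := by
          refine card_le_card fun j hj => ?_
          rw [mem_filter] at hj
          exact mem_range.2 hj.2
      _ = R := card_range R
  have h4 : 0 ≤ c ^ K * ∏ j ∈ range K, g j :=
    mul_nonneg (pow_nonneg hc _) (prod_nonneg hg)
  calc q ^ R * c ^ K * ∏ j ∈ range K, g j = q ^ R * (c ^ K * ∏ j ∈ range K, g j) := by ring
    _ ≤ (∏ j ∈ range K, (if j < R then q else 1)) * (c ^ K * ∏ j ∈ range K, g j) :=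
      mul_le_mul_of_nonneg_right h3 h4

/-- **[P2a]** -/
theorem peel2 : ∀ (n M L R : ℕ) (η : Fin (n + 2) → ℕ), n ≤ M → Antitone η → ∑ i, η i ≤ L →
    M + 2 ≤ L → R ≤ M → (∀ i : Fin (n + 2), R ≤ (i : ℕ) → 2 * η i ≤ T4.ex η 1) →
    (gt n M (fun i => η i.succ.succ) : ℝ) *
        ((T4.ex η 1 : ℝ) ^ 2 / (8 * L * (M + 2) ^ 2)) ^ (M + 1) * (1 / (4 * L)) ^ (2 * R + 3) *
        (((∑ i, η i) + (M + 2) - 1).choose (M + 1) * (M + 2).factorial : ℕ) ≤
      gt (n + 2) (M + 2) η := by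
  intro n M L R η hn hη hS hML _ hR
  set S := ∑ i, η i with hSdef
  set e1 : ℕ := T4.ex η 1 with he1
  have hη' : Antitone (fun i : Fin (n + 1) => η i.succ) :=
    fun i j h => hη (Fin.succ_le_succ_iff.2 h)
  have hA := peel (n + 1) (M + 1) η (by omega) hη
  have hB := peel n M (fun i => η i.succ) hn hη'
  have h10 : (fun i : Fin (n + 1) => η i.succ) 0 = e1 := by
    rw [he1, ex_succ]
    rfl
  simp only [h10] at hB
  have hC := choose_prod S (M + 1)
  have hch : S + (M + 2) - 1 = S + (M + 1) := by omega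
  rw [hch]
  -- real versions
  have hLr : (0 : ℝ) < L := by
    have : 0 < L := by omega
    exact_mod_cast this
  have hL1 : (1 : ℝ) ≤ L := by
    have : 1 ≤ L := by omega
    exact_mod_cast this
  have hex2 : ∀ j, R ≤ j → 2 * T4.ex η j ≤ e1 := by
    intro j hj
    by_cases h : j < n + 2
    · have := hR ⟨j, h⟩ hj
      have e : T4.ex η j = η ⟨j, h⟩ := by
        unfold T4.ex
        rw [dif_pos h]
      rw [e]
      exact this
    · have e : T4.ex η j = 0 := by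
        unfold T4.ex
        rw [dif_neg h]
      rw [e]
      omega
  have he0 : T4.ex η 0 = η 0 := pad_zero' η
  have he10 : e1 ≤ η 0 := by
    rw [← he0]
    exact ex_anti hη (Nat.zero_le 1)
  have hη0S : η 0 ≤ S := single_le_sum (f := η) (fun i _ => Nat.zero_le _) (mem_univ 0)
  have he1L : (e1 : ℝ) ≤ L := by
    have : e1 ≤ L := he10.trans (hη0S.trans hS)
    exact_mod_cast this
  have hanti : ∀ j, T4.ex η j ≤ η 0 := fun j => by
    rw [← he0]
    exact ex_anti hη (Nat.zero_le j)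
  have hanti1 : ∀ j, 1 ≤ j → T4.ex η j ≤ e1 := fun j hj => ex_anti hη hj
  set q : ℝ := 1 / (4 * L) with hq
  have hq0 : 0 ≤ q := by positivity
  have hq1 : q ≤ 1 := by
    rw [hq, div_le_one (by positivity)]
    linarith
  -- the product of row zero
  have hP0 : q ^ R * (e1 / (4 * L)) ^ (M + 1) * ∏ j ∈ range (M + 1), ((S : ℝ) + ((j : ℝ) + 1)) ≤
      ∏ j ∈ range (M + 1), ((η 0 - T4.ex η (j + 1) + (j + 1) : ℕ) : ℝ) := by
    refine prod_low (M + 1) R (fun j => ((η 0 - T4.ex η (j + 1) + (j + 1) : ℕ) : ℝ))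
      (fun j => (S : ℝ) + ((j : ℝ) + 1)) (e1 / (4 * L)) q hq0 hq1 (by positivity)
      (fun j _ => by positivity) (fun j hj hRj => ?_) (fun j hj hRj => ?_)
    · have h1 : (S : ℝ) + ((j : ℝ) + 1) ≤ 2 * L := by
        have h2 := mem_range.1 hj
        have : S + (j + 1) ≤ 2 * L := by omega
        exact_mod_cast this
      have h3 : e1 ≤ 2 * (η 0 - T4.ex η (j + 1) + (j + 1)) := by
        have h4 := hex2 (j + 1) (by omega)
        omega
      have h5 : (e1 : ℝ) ≤ 2 * ((η 0 - T4.ex η (j + 1) + (j + 1) : ℕ) : ℝ) := by exact_mod_cast h3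
      calc (e1 : ℝ) / (4 * L) * ((S : ℝ) + ((j : ℝ) + 1)) ≤ e1 / (4 * L) * (2 * L) :=
            mul_le_mul_of_nonneg_left h1 (by positivity)
        _ = e1 / 2 := by
            field_simp
            ring
        _ ≤ _ := by linarith
    · have h1 : (S : ℝ) + ((j : ℝ) + 1) ≤ 2 * L := by
        have h2 := mem_range.1 hj
        have : S + (j + 1) ≤ 2 * L := by omega
        exact_mod_cast this
      have h3 : (1 : ℝ) ≤ ((η 0 - T4.ex η (j + 1) + (j + 1) : ℕ) : ℝ) := by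
        have : 1 ≤ η 0 - T4.ex η (j + 1) + (j + 1) := by omega
        exact_mod_cast this
      have h4 : (e1 : ℝ) / (4 * L) * ((S : ℝ) + ((j : ℝ) + 1)) ≤ L := by
        calc (e1 : ℝ) / (4 * L) * ((S : ℝ) + ((j : ℝ) + 1)) ≤ e1 / (4 * L) * (2 * L) :=
              mul_le_mul_of_nonneg_left h1 (by positivity)
          _ = e1 / 2 := by
              field_simp
              ring
          _ ≤ L := by linarith
      calc q * ((e1 : ℝ) / (4 * L) * ((S : ℝ) + ((j : ℝ) + 1))) ≤ q * L :=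
            mul_le_mul_of_nonneg_left h4 hq0
        _ = 1 / 4 := by
            rw [hq]
            field_simp
        _ ≤ 1 := by norm_num
        _ ≤ _ := h3
  -- the product of row one
  have hP1 : q ^ R * (e1 / 2) ^ M * ∏ j ∈ range M, (1 : ℝ) ≤
      ∏ j ∈ range M, ((e1 - T4.ex η (j + 2) + (j + 1) : ℕ) : ℝ) := by
    refine prod_low M R (fun j => ((e1 - T4.ex η (j + 2) + (j + 1) : ℕ) : ℝ))
      (fun _ => (1 : ℝ)) (e1 / 2) q hq0 hq1 (by positivity)
      (fun j _ => zero_le_one) (fun j hj hRj => ?_) (fun j hj hRj => ?_)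
    · have h3 : e1 ≤ 2 * (e1 - T4.ex η (j + 2) + (j + 1)) := by
        have h4 := hex2 (j + 2) (by omega)
        omega
      have h5 : (e1 : ℝ) ≤ 2 * ((e1 - T4.ex η (j + 2) + (j + 1) : ℕ) : ℝ) := by exact_mod_cast h3
      linarith
    · have h3 : (1 : ℝ) ≤ ((e1 - T4.ex η (j + 2) + (j + 1) : ℕ) : ℝ) := by
        have : 1 ≤ e1 - T4.ex η (j + 2) + (j + 1) := by omega
        exact_mod_cast this
      calc q * ((e1 : ℝ) / 2 * 1) ≤ q * L := by
            refine mul_le_mul_of_nonneg_left ?_ hq0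
            linarith
        _ = 1 / 4 := by
            rw [hq]
            field_simp
        _ ≤ 1 := by norm_num
        _ ≤ _ := h3
  rw [prod_const_one, mul_one] at hP1
  -- factorials
  have hfac : (((M + 2).factorial : ℕ) : ℝ) * (M.factorial : ℝ) ≤ ((M + 2 : ℝ) ^ 2) ^ (M + 1) := by
    have h1 : ((M + 2).factorial : ℝ) ≤ ((M + 2 : ℕ) : ℝ) ^ (M + 2) := by
      exact_mod_cast Nat.factorial_le_pow (M + 2)
    have h2 : (M.factorial : ℝ) ≤ ((M + 2 : ℕ) : ℝ) ^ M := by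
      have h3 : M.factorial ≤ (M + 2) ^ M :=
        (Nat.factorial_le_pow M).trans (Nat.pow_le_pow_left (by omega) M)
      exact_mod_cast h3
    calc ((M + 2).factorial : ℝ) * (M.factorial : ℝ) ≤
        ((M + 2 : ℕ) : ℝ) ^ (M + 2) * ((M + 2 : ℕ) : ℝ) ^ M :=
          mul_le_mul h1 h2 (by positivity) (by positivity)
      _ = ((M + 2 : ℝ) ^ 2) ^ (M + 1) := by
          push_cast
          rw [← pow_add, ← pow_mul]
          congr 1
          ring
  -- cast the identities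
  have hA' : (gt (n + 2) (M + 2) η : ℝ) * ((M + 1).factorial : ℝ) =
      gt (n + 1) (M + 1) (fun i => η i.succ) *
        ∏ j ∈ range (M + 1), ((η 0 - T4.ex η (j + 1) + (j + 1) : ℕ) : ℝ) := by
    exact_mod_cast hA
  have hB' : (gt (n + 1) (M + 1) (fun i => η i.succ) : ℝ) * (M.factorial : ℝ) =
      gt n M (fun i => η i.succ.succ) *
        ∏ j ∈ range M, ((e1 - T4.ex η (j + 2) + (j + 1) : ℕ) : ℝ) := by
    have e : ∀ j, T4.ex (fun i : Fin (n + 1) => η i.succ) (j + 1) = T4.ex η (j + 2) := fun j =>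
      (ex_succ η (j + 1)).symm
    simp only [e] at hB
    exact_mod_cast hB
  have hC' : (((S + (M + 1)).choose (M + 1) : ℕ) : ℝ) * ((M + 1).factorial : ℝ) =
      ∏ j ∈ range (M + 1), ((S : ℝ) + ((j : ℝ) + 1)) := by
    exact_mod_cast hC
  set Ga : ℝ := (gt n M (fun i => η i.succ.succ) : ℝ) with hGa
  have hGa0 : 0 ≤ Ga := Nat.cast_nonneg _
  set P0 : ℝ := ∏ j ∈ range (M + 1), ((η 0 - T4.ex η (j + 1) + (j + 1) : ℕ) : ℝ) with hP0d
  set P1 : ℝ := ∏ j ∈ range M, ((e1 - T4.ex η (j + 2) + (j + 1) : ℕ) : ℝ) with hP1d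
  set PS : ℝ := ∏ j ∈ range (M + 1), ((S : ℝ) + ((j : ℝ) + 1)) with hPSd
  have hPS0 : 0 ≤ PS := prod_nonneg fun j _ => by positivity
  have hP10 : 0 ≤ P1 := prod_nonneg fun j _ => Nat.cast_nonneg _
  -- the main inequality between the products
  have main : ((e1 : ℝ) ^ 2 / (8 * L)) ^ (M + 1) * q ^ (2 * R + 3) * PS ≤ P1 * P0 := by
    have h1 : (q ^ R * ((e1 : ℝ) / 2) ^ M) * (q ^ R * (e1 / (4 * L)) ^ (M + 1) * PS) ≤ P1 * P0 :=
      mul_le_mul hP1 hP0 (by positivity) hP10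
    refine le_trans ?_ h1
    have h2 : ((e1 : ℝ) ^ 2 / (8 * L)) ^ (M + 1) =
        ((e1 : ℝ) / 2) ^ M * ((e1 : ℝ) / 2) * (e1 / (4 * L)) ^ (M + 1) := by
      rw [← pow_succ, ← mul_pow]
      congr 1
      field_simp
      ring
    have h3 : q ^ 3 * ((e1 : ℝ) / 2) ≤ 1 := by
      have h4 : q * ((e1 : ℝ) / 2) ≤ 1 := by
        calc q * ((e1 : ℝ) / 2) ≤ q * L := by
              refine mul_le_mul_of_nonneg_left ?_ hq0
              linarith
          _ = 1 / 4 := by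
              rw [hq]
              field_simp
          _ ≤ 1 := by norm_num
      have h5 : q ^ 2 ≤ 1 := pow_le_one₀ hq0 hq1
      calc q ^ 3 * ((e1 : ℝ) / 2) = q ^ 2 * (q * ((e1 : ℝ) / 2)) := by ring
        _ ≤ 1 * 1 := mul_le_mul h5 h4 (by positivity) zero_le_one
        _ = 1 := by ring
    rw [h2]
    have h6 : 0 ≤ (q ^ R * ((e1 : ℝ) / 2) ^ M) * (q ^ R * (e1 / (4 * L)) ^ (M + 1) * PS) := by
      positivity
    calc ((e1 : ℝ) / 2) ^ M * ((e1 : ℝ) / 2) * (e1 / (4 * L)) ^ (M + 1) * q ^ (2 * R + 3) * PS =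
        (q ^ 3 * ((e1 : ℝ) / 2)) *
          ((q ^ R * ((e1 : ℝ) / 2) ^ M) * (q ^ R * (e1 / (4 * L)) ^ (M + 1) * PS)) := by
          ring
      _ ≤ 1 * ((q ^ R * ((e1 : ℝ) / 2) ^ M) * (q ^ R * (e1 / (4 * L)) ^ (M + 1) * PS)) :=
          mul_le_mul_of_nonneg_right h3 h6
      _ = _ := one_mul _
  -- multiply out
  have hf1 : (0 : ℝ) < ((M + 1).factorial : ℝ) := by exact_mod_cast Nat.factorial_pos _
  have hf2 : (0 : ℝ) < (M.factorial : ℝ) := by exact_mod_cast Nat.factorial_pos _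
  have hRHS : (gt (n + 2) (M + 2) η : ℝ) * (((M + 1).factorial : ℝ) * (M.factorial : ℝ)) =
      Ga * (P1 * P0) := by
    calc (gt (n + 2) (M + 2) η : ℝ) * (((M + 1).factorial : ℝ) * (M.factorial : ℝ)) =
        ((gt (n + 2) (M + 2) η : ℝ) * ((M + 1).factorial : ℝ)) * (M.factorial : ℝ) := by ring
      _ = (gt (n + 1) (M + 1) (fun i => η i.succ) : ℝ) * P0 * (M.factorial : ℝ) := by rw [hA']
      _ = ((gt (n + 1) (M + 1) (fun i => η i.succ) : ℝ) * (M.factorial : ℝ)) * P0 := by ring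
      _ = Ga * P1 * P0 := by rw [hB']
      _ = Ga * (P1 * P0) := by ring
  have hM2 : (0 : ℝ) < (M + 2 : ℝ) := by positivity
  refine le_of_mul_le_mul_right ?_ (mul_pos hf1 hf2)
  rw [hRHS]
  have hX : ((e1 : ℝ) ^ 2 / (8 * L * (M + 2) ^ 2)) ^ (M + 1) * ((M + 2 : ℝ) ^ 2) ^ (M + 1) =
      ((e1 : ℝ) ^ 2 / (8 * L)) ^ (M + 1) := by
    rw [← mul_pow]
    congr 1
    field_simp
  have hX0 : 0 ≤ ((e1 : ℝ) ^ 2 / (8 * L * (M + 2) ^ 2)) ^ (M + 1) := by positivity
  rw [Nat.cast_mul]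
  calc Ga * ((e1 : ℝ) ^ 2 / (8 * L * (M + 2) ^ 2)) ^ (M + 1) * q ^ (2 * R + 3) *
        ((((S + (M + 1)).choose (M + 1) : ℕ) : ℝ) * (((M + 2).factorial : ℕ) : ℝ)) *
        (((M + 1).factorial : ℝ) * (M.factorial : ℝ)) =
      Ga * (((e1 : ℝ) ^ 2 / (8 * L * (M + 2) ^ 2)) ^ (M + 1) *
        ((((M + 2).factorial : ℕ) : ℝ) * (M.factorial : ℝ)) * q ^ (2 * R + 3) *
        ((((S + (M + 1)).choose (M + 1) : ℕ) : ℝ) * ((M + 1).factorial : ℝ))) := by ring
    _ = Ga * (((e1 : ℝ) ^ 2 / (8 * L * (M + 2) ^ 2)) ^ (M + 1) *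
        ((((M + 2).factorial : ℕ) : ℝ) * (M.factorial : ℝ)) * q ^ (2 * R + 3) * PS) := by rw [hC']
    _ ≤ Ga * (((e1 : ℝ) ^ 2 / (8 * L * (M + 2) ^ 2)) ^ (M + 1) *
        ((M + 2 : ℝ) ^ 2) ^ (M + 1) * q ^ (2 * R + 3) * PS) := by
          refine mul_le_mul_of_nonneg_left ?_ hGa0
          refine mul_le_mul_of_nonneg_right ?_ hPS0
          refine mul_le_mul_of_nonneg_right ?_ (pow_nonneg hq0 _)
          exact mul_le_mul_of_nonneg_left hfac hX0
    _ = Ga * (((e1 : ℝ) ^ 2 / (8 * L)) ^ (M + 1) * q ^ (2 * R + 3) * PS) := by rw [hX]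
    _ ≤ Ga * (P1 * P0) := mul_le_mul_of_nonneg_left main hGa0

end Vale.Agent.P181.MD.H112
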